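import Vale.Agent.H16.SymE

/-!
# Structured null vectors of symmetric random sign matrices

`A_n` is uniform over the symmetric `n × n` matrices with entries `±1`.  We show that the
probability that `A_n` has a *structured* non-zero null vector (one with at least `32 n / log n`
zero coordinates, or one with integer coordinates of size at most `√n / 50`) has exact exponential
rate `1/2`, indeed is at most `n² 2⁻ⁿ` for large `n`.
-/

namespace Vale.Agent.Results.P160.StructuredKernel

open Filter Topology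

/-- The symmetric `n × n` real matrices with entries `±1`. -/
def symSign (n : ℕ) : Set (Matrix (Fin n) (Fin n) ℝ) :=
  {A | A.IsSymm ∧ ∀ i j, A i j = 1 ∨ A i j = -1}

/-- The probability of the event `E` when `A_n` is uniform on `symSign n`. -/
noncomputable def prob (n : ℕ) (E : Set (Matrix (Fin n) (Fin n) ℝ)) : ℝ :=
  ((symSign n ∩ E).ncard : ℝ) / ((symSign n).ncard : ℝ)

/-- A vector is structured if it has at least `32 n / log n` zero coordinates, or if it is an
integer vector all of whose coordinates have absolute value at most `√n / 50`. -/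
def Structured {n : ℕ} (v : Fin n → ℝ) : Prop :=
  32 * (n : ℝ) / Real.log n ≤ ({i | v i = 0} : Set (Fin n)).ncard ∨
    ∀ i, (∃ m : ℤ, v i = m) ∧ |v i| ≤ Real.sqrt n / 50

/-- The matrices with a structured non-zero null vector. -/
def structuredSingular (n : ℕ) : Set (Matrix (Fin n) (Fin n) ℝ) :=
  {A | ∃ v : Fin n → ℝ, v ≠ 0 ∧ A.mulVec v = 0 ∧ Structured v}

/-- The singular matrices without structured non-zero null vector. -/
def unstructuredSingular (n : ℕ) : Set (Matrix (Fin n) (Fin n) ℝ) :=
  {A | A.det = 0 ∧ ∀ v : Fin n → ℝ, v ≠ 0 → A.mulVec v = 0 → ¬ Structured v}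

open H16.Sym in
/-- coding of symmetric sign matrices -/
noncomputable def mat {n : ℕ} (σ : Sym2 (Fin n) → Bool) : Matrix (Fin n) (Fin n) ℝ :=
  Matrix.of (ent σ)

section coding
open H16.Sym
variable {n : ℕ}

lemma mat_injective : Function.Injective (mat (n := n)) := by
  intro σ τ h
  funext x
  induction x with
  | _ i j =>
    have h1 : ent σ i j = ent τ i j := congrFun (congrFun h i) j
    unfold ent sgn at h1
    cases hs : σ s(i, j) <;> cases ht : τ s(i, j) <;> simp [hs, ht] at h1 ⊢
    · norm_num at h1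
    · norm_num at h1

lemma range_mat : Set.range (mat (n := n)) = symSign n := by
  ext A
  constructor
  · rintro ⟨σ, rfl⟩
    refine ⟨?_, fun i j => ent_eq σ i j⟩
    ext i j
    simp [mat, ent, Sym2.eq_swap]
  · rintro ⟨hs, hA⟩
    classical
    refine ⟨Sym2.lift ⟨fun i j => decide (A i j = 1), ?_⟩, ?_⟩
    · intro i j
      have : A i j = A j i := by
        have := congrFun (congrFun hs j) i
        simpa using this
      change decide (A i j = 1) = decide (A j i = 1)
      rw [this]
    · ext i j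
      simp only [mat, Matrix.of_apply, ent, Sym2.lift_mk, sgn]
      rcases hA i j with h | h
      · simp [h]
      · simp [h]
        intro h1
        norm_num at h1

lemma prob_eq (E : Set (Matrix (Fin n) (Fin n) ℝ)) :
    prob n E = mu (fun σ : Sym2 (Fin n) → Bool => mat σ ∈ E) := by
  unfold prob mu
  have h1 : symSign n ∩ E = mat '' {σ | mat σ ∈ E} := by
    rw [← range_mat]
    ext A
    constructor
    · rintro ⟨⟨σ, rfl⟩, hE⟩; exact ⟨σ, hE, rfl⟩
    · rintro ⟨σ, hσ, rfl⟩; exact ⟨⟨σ, rfl⟩, hσ⟩
  have h2 : (symSign n).ncard = 2 ^ Fintype.card (Sym2 (Fin n)) := by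
    rw [← range_mat, ← Set.image_univ, Set.ncard_image_of_injective _ mat_injective,
      Set.ncard_univ, Nat.card_eq_fintype_card, Fintype.card_fun, Fintype.card_bool]
  rw [h1, Set.ncard_image_of_injective _ mat_injective, h2]
  push_cast
  rfl

lemma inKer_iff (σ : Sym2 (Fin n) → Bool) (v : Fin n → ℝ) :
    (mat σ).mulVec v = 0 ↔ InKer (ent σ) v := by
  constructor
  · intro h i
    exact congrFun h i
  · intro h
    funext i
    exact h i

lemma structured_iff (v : Fin n → ℝ) : Structured v ↔ StructuredVec n v := by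
  unfold Structured StructuredVec
  rw [Set.ncard_eq_toFinset_card']
  simp

end coding

/-- upper bound -/
lemma upper : ∀ᶠ n : ℕ in atTop, prob n (structuredSingular n) ≤ (n : ℝ) ^ 2 / 2 ^ n := by
  filter_upwards [H16.Sym.main_bound] with n hn
  rw [prob_eq]
  refine le_trans (le_of_eq ?_) hn
  apply H16.Sym.mu_congr
  intro σ
  constructor
  · rintro ⟨v, h0, h1, h2⟩
    exact ⟨v, h0, (inKer_iff σ v).mp h1, (structured_iff v).mp h2⟩
  · rintro ⟨v, h0, h1, h2⟩
    exact ⟨v, h0, (inKer_iff σ v).mpr h1, (structured_iff v).mpr h2⟩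

/-- collapse the indices `0` and `1` -/
def coll (m : ℕ) (k : Fin (m + 2)) : Fin (m + 1) := ⟨k.val - 1, by omega⟩

lemma coll_surj (m : ℕ) : Function.Surjective (coll m) := by
  intro k
  exact ⟨⟨k.val + 1, by omega⟩, by simp [coll]⟩

open H16.Sym in
/-- two equal columns -/
lemma two_columns (m : ℕ) :
    1 / 2 ^ (m + 2) ≤ mu (fun σ : Sym2 (Fin (m + 2)) → Bool => ∀ k, σ s(k, 0) = σ s(k, 1)) := by
  unfold mu
  have hinj : Function.Injective (fun f : Sym2 (Fin (m + 1)) → Bool =>
      (⟨f ∘ Sym2.map (coll m), by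
        intro k
        simp [coll]⟩ : {σ : Sym2 (Fin (m + 2)) → Bool // ∀ k, σ s(k, 0) = σ s(k, 1)})) := by
    intro f g hfg
    have h := congrArg Subtype.val hfg
    simp only at h
    have hs : Function.Surjective (Sym2.map (coll m)) := by
      intro x
      induction x with
      | _ i j =>
        obtain ⟨a, rfl⟩ := coll_surj m i
        obtain ⟨b, rfl⟩ := coll_surj m j
        exact ⟨s(a, b), rfl⟩
    exact hs.injective_comp_right h
  have h1 := Nat.card_le_card_of_injective _ hinj
  rw [Nat.card_eq_fintype_card (α := Sym2 (Fin (m + 1)) → Bool), Fintype.card_fun,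
    Fintype.card_bool, Sym2.card, Fintype.card_fin] at h1
  have h2 : Fintype.card (Sym2 (Fin (m + 2))) = (m + 1 + 1).choose 2 + (m + 2) := by
    rw [Sym2.card, Fintype.card_fin, show m + 2 + 1 = (m + 2).succ from rfl, Nat.choose_succ_succ,
      Nat.choose_one_right]
    ring
  rw [h2, pow_add (2:ℝ) ((m + 1 + 1).choose 2) (m + 2), div_le_div_iff₀ (by positivity) (by positivity),
    one_mul]
  have h3 : ((2:ℝ) ^ (m + 1 + 1).choose 2) ≤
      (Nat.card {σ : Sym2 (Fin (m + 2)) → Bool // ∀ k, σ s(k, 0) = σ s(k, 1)} : ℝ) := by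
    exact_mod_cast h1
  exact mul_le_mul_of_nonneg_right h3 (by positivity : (0:ℝ) ≤ 2 ^ (m + 2))

open H16.Sym in
/-- lower bound -/
lemma lower : ∀ᶠ n : ℕ in atTop, 1 / 2 ^ n ≤ prob n (structuredSingular n) := by
  filter_upwards [eventually_ge_atTop 1000, (Real.tendsto_log_atTop.comp
    tendsto_natCast_atTop_atTop).eventually_ge_atTop (100:ℝ)] with n hn hlog
  simp only [Function.comp] at hlog
  obtain ⟨m, rfl⟩ : ∃ m, n = m + 2 := ⟨n - 2, by omega⟩
  refine (two_columns m).trans ?_
  rw [prob_eq]
  apply mu_mono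
  intro σ hσ
  refine ⟨fun j => if j = 0 then 1 else if j = 1 then -1 else 0, ?_, ?_, ?_⟩
  · intro h
    have := congrFun h 0
    simp at this
  · rw [inKer_iff]
    intro i
    have h01 : (1 : Fin (m + 2)) ≠ 0 := by simp
    have : ∀ j, ent σ i j * (if j = 0 then (1:ℝ) else if j = 1 then -1 else 0) =
        (if j = 0 then ent σ i 0 else 0) + (if j = 1 then - ent σ i 1 else 0) := by
      intro j
      by_cases h0 : j = 0
      · subst h0
        simp
      · by_cases h1 : j = 1
        · subst h1
          simp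
        · simp [h0, h1]
    simp_rw [this]
    rw [Finset.sum_add_distrib, Finset.sum_ite_eq', Finset.sum_ite_eq']
    simp [ent, hσ i]
  · left
    have hsub : (({0, 1} : Finset (Fin (m + 2)))ᶜ : Set (Fin (m + 2))) ⊆
        {i | (if i = 0 then (1:ℝ) else if i = 1 then -1 else 0) = 0} := by
      intro i hi
      simp only [Finset.coe_insert, Finset.coe_singleton, Set.mem_compl_iff, Set.mem_insert_iff,
        Set.mem_singleton_iff, not_or] at hi
      simp [hi.1, hi.2]
    have h1 := Set.ncard_le_ncard hsub (Set.toFinite _)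
    have h2 : (({0, 1} : Finset (Fin (m + 2)))ᶜ : Set (Fin (m + 2))).ncard = m := by
      rw [← Finset.coe_compl, Set.ncard_coe_finset, Finset.card_compl, Fintype.card_fin]
      rw [Finset.card_pair (by simp)]
      omega
    rw [h2] at h1
    have h3 : (m : ℝ) ≤ ((({i | (if i = 0 then (1:ℝ) else if i = 1 then -1 else 0) = 0} :
        Set (Fin (m + 2))).ncard : ℕ) : ℝ) := by exact_mod_cast h1
    refine le_trans ?_ h3
    have hm : (998:ℝ) ≤ m := by exact_mod_cast (by omega : 998 ≤ m)
    have hl : 0 < Real.log ((m + 2 : ℕ) : ℝ) := by linarith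
    rw [div_le_iff₀ hl]
    have h5 : (m : ℝ) * 100 ≤ m * Real.log ((m + 2 : ℕ) : ℝ) :=
      mul_le_mul_of_nonneg_left hlog (by linarith)
    refine le_trans ?_ h5
    have h6 : (((m + 2 : ℕ)) : ℝ) = m + 2 := by push_cast; ring
    rw [h6]
    linarith

/-- the limit -/
lemma limit : Tendsto (fun n : ℕ => prob n (structuredSingular n) ^ (1 / (n : ℝ))) atTop
    (𝓝 (1 / 2)) := by
  have h1 : Tendsto (fun n : ℕ => ((n : ℝ) ^ (1 / (n : ℝ))) ^ 2 * (1 / 2)) atTop (𝓝 (1 / 2)) := by
    have h := (tendsto_rpow_div.comp tendsto_natCast_atTop_atTop).pow 2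
    have h' := h.mul_const (1 / 2 : ℝ)
    simp only [one_pow, one_mul, Function.comp] at h'
    exact h'
  refine tendsto_of_tendsto_of_tendsto_of_le_of_le' tendsto_const_nhds h1 ?_ ?_
  · filter_upwards [lower, eventually_ge_atTop 1] with n hn h1
    have hn0 : (0:ℝ) < n := by exact_mod_cast h1
    have : (1 / 2 : ℝ) = ((1:ℝ) / 2 ^ n) ^ (1 / (n : ℝ)) := by
      have h2 : (1:ℝ) / 2 ^ n = (1 / 2) ^ n := by rw [div_pow, one_pow]
      rw [h2, ← Real.rpow_natCast, ← Real.rpow_mul (by norm_num)]
      rw [mul_one_div_cancel hn0.ne', Real.rpow_one]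
    rw [this]
    exact Real.rpow_le_rpow (by positivity) hn (by positivity)
  · filter_upwards [upper, eventually_ge_atTop 1] with n hn h1
    have hn0 : (0:ℝ) < n := by exact_mod_cast h1
    have h0 : 0 ≤ prob n (structuredSingular n) := by unfold prob; positivity
    refine (Real.rpow_le_rpow h0 hn (by positivity)).trans (le_of_eq ?_)
    have h2 : (n:ℝ) ^ 2 / 2 ^ n = (n:ℝ) ^ 2 * (1 / 2) ^ n := by
      rw [div_pow, one_pow]; ring
    rw [h2, Real.mul_rpow (by positivity) (by positivity)]
    congr 1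
    · rw [← Real.rpow_natCast, ← Real.rpow_mul hn0.le, ← Real.rpow_natCast, ← Real.rpow_mul hn0.le,
        mul_comm]
    · rw [← Real.rpow_natCast, ← Real.rpow_mul (by norm_num), mul_one_div_cancel hn0.ne',
        Real.rpow_one]

open H16.Sym in
/-- **Main theorem.** -/
theorem result :
    (∀ᶠ n : ℕ in atTop, prob n (structuredSingular n) ≤ (n : ℝ) ^ 2 / 2 ^ n) ∧
    (∀ᶠ n : ℕ in atTop, 1 / 2 ^ n ≤ prob n (structuredSingular n)) ∧
    Tendsto (fun n : ℕ => prob n (structuredSingular n) ^ (1 / (n : ℝ))) atTop (𝓝 (1 / 2)) ∧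
    (∀ᶠ n : ℕ in atTop, prob n {A | A.det = 0} ≤
      (n : ℝ) ^ 2 / 2 ^ n + prob n (unstructuredSingular n)) := by
  refine ⟨upper, lower, limit, ?_⟩
  filter_upwards [upper] with n hn
  have h1 : prob n {A | A.det = 0} ≤ prob n (structuredSingular n) + prob n (unstructuredSingular n) := by
    rw [prob_eq, prob_eq, prob_eq]
    refine le_trans (mu_mono ?_) (mu_or_le _ _)
    intro σ hσ
    by_cases h : mat σ ∈ structuredSingular n
    · exact Or.inl h
    · right
      refine ⟨hσ, ?_⟩
      intro v h0 h1 h2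
      exact h ⟨v, h0, h1, h2⟩
  linarith

end Vale.Agent.Results.P160.StructuredKernel
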